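import Vale.Agent.P207.N3.H76.Asm2
import Vale.Agent.P207.N3.H459.Dirn
import Vale.Agent.P207.N3.H460.MFA

/-!
# P207, line N3, R13a / R22: the geometric input `In3` over model (A)
-/

open scoped Manifold ContDiff ENNReal Topology Matrix
open Bundle MeasureTheory Set Filter Metric

set_option maxSynthPendingDepth 3
set_option linter.unusedSectionVars false

noncomputable section

namespace Vale.Agent.P207.N3.H76

open Vale.Agent.P255 (RMetric Npc)
open Vale.Agent.P207 Vale.Agent.P207.Q Vale.Agent.P207.Q.H130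
open H465 (Deck PB Mt toMt ofMt Xt)
open H156 (geoA Dk co jA)
open H747 (fl TubeR usys)
open H459 (dirS)

variable {M : Type} [TopologicalSpace M] [ChartedSpace (EV 3) M] [IsManifold 𝓘(ℝ, EV 3) ∞ M]
  {g : RMetric (EV 3) M} [CompactSpace M] [T2Space M] [ConnectedSpace M] [Nonempty (Fr g)]

/-- the Hölder field of `In3` for `D` with the radius `θ` -/
def HoldF {Γ X Y : Type} [Group Γ] [MetricSpace X] [ProperSpace X] [MetricSpace Y]
    [ProperSpace Y] [MulAction Γ X] [MulAction Γ Y] [IsIsometricSMul Γ X] [IsIsometricSMul Γ Y]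
    {G : Geo Γ X Y} {V : Type} [NormedAddCommGroup V] [NormedSpace ℝ V] {j : Y ≃ₜ V}
    (D : G.Dir j) (θ : ℝ) : Prop :=
  ∀ Q : Set X, IsCompact Q → ∀ S₀ : ℝ, ∃ C α : ℝ, 0 < α ∧ ∀ y ∈ Q, ∀ y' ∈ Q,
    ∀ s ∈ Icc (-S₀) S₀, ∀ v ∈ closedBall (0 : E2) θ,
      ‖j (G.E (D.lf y v) (s • D.W y v)) - j (G.E (D.lf y' v) (s • D.W y' v))‖ ≤
        C * dist y y' ^ α

variable (hN : NegCurvature g) (m : M) (Dm : MDat g (fl g)) {ρ : ℝ} (hT : TubeR g ρ)
  {ε δ : ℝ} {gs : Fr g → E2 → E2} (hg : (usys Dm hT).Slope ε δ gs)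

/-- **the geometric input over model (A)** -/
def in3A {θ : ℝ} (hθ : 0 < θ) (hold : HoldF (dirS hN m Dm hT hg) θ) :
    (geoA hN m).In3 (jA (npc_of_neg hN) m) where
  D := dirS hN m Dm hT hg
  F := H460.mfA hN m
  K := Fr g
  topK := inferInstance
  cpt := inferInstance
  pr x := x.f
  φK := fl g
  φK_cont := H747.continuous_fl
  pr_φ t x := H459.f_φ hN m t x
  g := gs
  ρ := ε
  ρ_pos := hg.ε_pos
  κ := Dm.lam
  κ_pos := Dm.ur.pos
  δ := (H459.ode_dirS hN m Dm hT hg).choose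
  δ_pos := (H459.ode_dirS hN m Dm hT hg).choose_spec.1
  g_jc := ⟨isOpen_univ.prod isOpen_ball, fun x => (hg.smooth x).mono fun _ hu => hu.2, hg.cont⟩
  g_zero := hg.zero
  g_low x a := by
    rw [hg.deriv]
    exact H747.UC_pos Dm x a
  ode := (H459.ode_dirS hN m Dm hT hg).choose_spec.2
  θ := θ
  θ_pos := hθ
  hold := hold

theorem in3A_D {θ : ℝ} (hθ : 0 < θ) (hold : HoldF (dirS hN m Dm hT hg) θ) :
    (in3A hN m Dm hT hg hθ hold).D = dirS hN m Dm hT hg := rfl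

end Vale.Agent.P207.N3.H76
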