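import Vale.Agent.P207.N3.H76.In3A
import Vale.Agent.P207.N3.H863.HoldA

/-!
# P207, line N3, R13a / R22: all choices over model (A)
-/

open scoped Manifold ContDiff ENNReal Topology Matrix
open Bundle MeasureTheory Set Filter Metric

set_option maxSynthPendingDepth 3
set_option linter.unusedSectionVars false

noncomputable section

namespace Vale.Agent.P207.N3.H76

open Vale.Agent.P255 (RMetric Npc)
open Vale.Agent.P207 Vale.Agent.P207.Q Vale.Agent.P207.Q.H130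
open H465 (Deck PB Mt toMt ofMt Xt)
open H156 (geoA Dk co jA)
open H747 (fl TubeR usys)
open H459 (dirS)

variable {M : Type} [TopologicalSpace M] [ChartedSpace (EV 3) M] [IsManifold 𝓘(ℝ, EV 3) ∞ M]
  {g : RMetric (EV 3) M} [CompactSpace M] [T2Space M] [ConnectedSpace M] [Nonempty (Fr g)]

/-- all choices for the leaf structure over model (A): the tube, the slope function, the Hölder
constants and the scale -/
structure ChA (hN : NegCurvature g) (m : M) (Dm : MDat g (fl g)) where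
  ρ : ℝ
  hT : TubeR g ρ
  ε : ℝ
  δ : ℝ
  gs : Fr g → E2 → E2
  hg : (usys Dm hT).Slope ε δ gs
  θ : ℝ
  hθ : 0 < θ
  hold : HoldF (dirS hN m Dm hT hg) θ
  r₀ : ℝ
  t₁ : ℝ
  χ : ℝ
  hc : Geo.Cst (in3A hN m Dm hT hg hθ hold) r₀ t₁ χ

theorem exists_chA_of (hN : NegCurvature g) (m : M) (Dm : MDat g (fl g))
    (hold : ∀ {ρ : ℝ} (hT : TubeR g ρ) {ε δ : ℝ} {gs : Fr g → E2 → E2}
      (hg : (usys Dm hT).Slope ε δ gs), ∃ θ, 0 < θ ∧ HoldF (dirS hN m Dm hT hg) θ) :
    Nonempty (ChA hN m Dm) := by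
  obtain ⟨ρ, hT⟩ := H747.exists_tubeR (g := g)
  obtain ⟨ε, δ, gs, hg⟩ := H747.exists_slope_fr Dm hT
  obtain ⟨θ, hθ, h⟩ := hold hT hg
  obtain ⟨r₀, t₁, χ, hc⟩ := (in3A hN m Dm hT hg hθ h).exists_cst
  exact ⟨⟨ρ, hT, ε, δ, gs, hg, θ, hθ, h, r₀, t₁, χ, hc⟩⟩

/-- **all choices over model (A) exist** -/
theorem exists_chA (hN : NegCurvature g) (m : M) (Dm : MDat g (fl g)) :
    Nonempty (ChA hN m Dm) :=
  exists_chA_of hN m Dm fun hT _ _ _ hg => H863.hold_dirS hN m Dm hT hg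

/-- **`In3` over model (A)** -/
theorem exists_in3A (hN : NegCurvature g) (m : M) (Dm : MDat g (fl g)) :
    Nonempty ((geoA hN m).In3 (jA (npc_of_neg hN) m)) := by
  obtain ⟨c⟩ := exists_chA hN m Dm
  exact ⟨in3A hN m Dm c.hT c.hg c.hθ c.hold⟩

end Vale.Agent.P207.N3.H76
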