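import Vale.Agent.P207.N3.Geo.OverA

/-!
# P207, line N3, R12: the frames at one point, over model (A)
-/

open scoped Manifold ContDiff ENNReal Topology Matrix
open Bundle MeasureTheory Set Filter

set_option maxSynthPendingDepth 3
set_option linter.unusedSectionVars false

noncomputable section

namespace Vale.Agent.P207.N3.H76

open Vale.Agent.P255 (RMetric Npc)
open Vale.Agent.P207 Vale.Agent.P207.Q Vale.Agent.P207.Q.H130
open H465 (Deck PB Mt toMt ofMt Xt)
open H156 (geoA Dk)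

variable {M : Type} [TopologicalSpace M] [ChartedSpace (EV 3) M] [IsManifold 𝓘(ℝ, EV 3) ∞ M]
  {g : RMetric (EV 3) M} [CompactSpace M] [T2Space M] [ConnectedSpace M] [Nonempty (Fr g)]
  {hN : NegCurvature g} {m : M}
  {V : Type} [NormedAddCommGroup V] [NormedSpace ℝ V] [FiniteDimensional ℝ V]
  {j : Mt (sys g (npc_of_neg hN)) m ≃ₜ V} {I : (geoA hN m).In3 j} {r₀ t₁ χ : ℝ}

/-- **R12**: the frames at the point of `x₀` -/
def fiberA (hc : Geo.Cst I r₀ t₁ χ) (o : Mt (sys g (npc_of_neg hN)) m)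
    (x₀ : Xt g (npc_of_neg hN) m) : Fiber (hc.leaf o) :=
  H908.mkFiber (hc.leaf o) x₀ (fun R x => (geoA hN m).act R x)
    (fun R S x => (geoA hN m).act_mul R S x)
    (fun a x => by
      rw [← ext_eq_ext]
      rfl)
    (fun Y _ R hR => H908.continuous_rotE_left hR x₀)

/-- the frames of `fiberA` are frames at one point -/
theorem ft_fiberA (hc : Geo.Cst I r₀ t₁ χ) (o : Mt (sys g (npc_of_neg hN)) m)
    (x₀ : Xt g (npc_of_neg hN) m) (R : O3) :
    (geoA hN m).ft ((fiberA hc o x₀).fib R) = (geoA hN m).ft x₀ := rfl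

/-- every frame at the point of `x₀` is in the fiber -/
theorem exists_fiberA (hc : Geo.Cst I r₀ t₁ χ) (o : Mt (sys g (npc_of_neg hN)) m)
    (x₀ x : Xt g (npc_of_neg hN) m) (h : (geoA hN m).ft x = (geoA hN m).ft x₀) :
    ∃ R : O3, (fiberA hc o x₀).fib R = x := by
  obtain ⟨R, hR⟩ := (geoA hN m).act_trans x₀ x h.symm
  exact ⟨R, hR.symm⟩

end Vale.Agent.P207.N3.H76
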